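import Claimed.Agent.R282.Rep.C.WDkit.Grp

/-!
# Row 282, Rep, LEAF L-C-WDKIT-CHAM : chambers of `W(D_n)` and the cone `Q₊` (statements by helper103), ~500 lines

Elementary.  Cite `WDkit/Grp` freely.  `InQplus x` : `x` is an `ℕ`-combination of the doubled positive roots `posRoot2`.
(K6): sort `|ν_i|` decreasingly, make all entries `≥ 0` except possibly the last (if the number of sign changes is odd, change also the sign of the last coordinate), or: maximise `∑ (wν)_i ρ'_i`, `ρ' = rho2 n`, over the finite orbit, and use the reflections (K5).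
(K8), (K9): `δ - wδ ∈ Q₊` by induction: if `wδ` is not dominant some positive root `β` has `⟨wδ, β⟩ < 0`; `s_β w δ = wδ + k β`, `k > 0` (integrality of `k`: parity condition in `IsDominantWeight2`); `⟨·, ρ'⟩` increases and is bounded on the orbit; at a
dominant point of the orbit use (K8).  (K8): `|x|` sorted decreasingly is determined by the multiset of absolute values; the sign of the last entry by the parity of the number of negative entries (if no entry is zero).
(K7): from `δ_0 > δ_1 > … > |δ_(n-1)|`: absolute values distinct, so `σ = 1`; then `s i = false` wherever `δ i ≠ 0`; at most one zero entry and `evenS`.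
(K10): each positive root pairs nonnegatively (positively) with a (strictly) dominant vector.
-/

set_option autoImplicit false

namespace Claimed.Agent.R282

open Claims.C0456

variable {n : ℕ}

/-! ### auxiliary lemmas (prefix `wdc_`) -/

theorem wdc_root_pair (i j : Fin n) (b : Bool) (δ : Fin n → ℤ) :
    ∑ k, posRoot2 i j b k * δ k = 2 * (δ i + (if b then 1 else -1) * δ j) := by
  have e : ∀ k : Fin n, posRoot2 i j b k * δ k =
      2 * (if k = i then δ k else 0) + 2 * (if b then 1 else -1) * (if k = j then δ k else 0) := by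
    intro k
    unfold posRoot2
    split_ifs <;> ring
  simp only [e, Finset.sum_add_distrib, ← Finset.mul_sum, Finset.sum_ite_eq', Finset.mem_univ, if_true]
  ring

theorem wdc_root_pair_nonneg (i j : Fin n) (hij : i < j) (b : Bool) (δ : Fin n → ℤ) (hδ : DomZ2 δ) :
    0 ≤ ∑ k, posRoot2 i j b k * δ k := by
  rw [wdc_root_pair]
  have h := abs_le.1 (hδ i j hij)
  cases b <;> simp <;> omega

theorem wdc_root_pair_pos (i j : Fin n) (hij : i < j) (b : Bool) (δ : Fin n → ℤ) (hδ : RegZ2 δ) :
    0 < ∑ k, posRoot2 i j b k * δ k := by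
  rw [wdc_root_pair]
  have h := abs_lt.1 (hδ i j hij)
  cases b <;> simp <;> omega

theorem wdc_pair_sum (c : {r : Fin n × Fin n × Bool // r.1 < r.2.1} → ℕ) (δ : Fin n → ℤ) :
    ∑ i, (∑ r, c r • posRoot2 r.1.1 r.1.2.1 r.1.2.2) i * δ i =
      ∑ r, (c r : ℤ) * ∑ i, posRoot2 r.1.1 r.1.2.1 r.1.2.2 i * δ i := by
  simp only [Finset.sum_apply, Pi.smul_apply]
  simp only [nsmul_eq_mul, Finset.sum_mul, Finset.mul_sum]
  rw [Finset.sum_comm]
  refine Finset.sum_congr rfl fun r _ => Finset.sum_congr rfl fun i _ => ?_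
  ring

theorem wdc_qplus_root (i j : Fin n) (hij : i < j) (b : Bool) (q : ℕ) : InQplus (q • posRoot2 i j b) := by
  classical
  refine ⟨Pi.single ⟨(i, j, b), hij⟩ q, ?_⟩
  rw [Finset.sum_eq_single ⟨(i, j, b), hij⟩]
  · simp
  · intro r _ hr
    simp [Pi.single_eq_of_ne hr]
  · simp

theorem wdc_qplus_zero : InQplus (0 : Fin n → ℤ) := ⟨0, by simp⟩

/-- a non dominant vector is improved by a reflection -/
theorem wdc_improve (y : Fin n → ℤ) (hy : ¬ DomZ2 y) :
    ∃ (i j : Fin n) (b : Bool) (τ : Equiv.Perm (Fin n)) (t : Fin n → Bool) (m : ℤ), i < j ∧ evenS t ∧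
      0 < m ∧ m = -(y i + (if b then 1 else -1) * y j) ∧
      ∀ k, 2 * signedPermAct τ t y k = 2 * y k + m * posRoot2 i j b k := by
  unfold DomZ2 at hy
  push Not at hy
  obtain ⟨i, j, hij, h⟩ := hy
  rcases lt_abs.1 h with h | h
  · refine ⟨i, j, false, Equiv.swap i j, fun _ => false, -(y i + (-1) * y j), hij, evenS_false,
      by omega, by simp, fun k => ?_⟩
    rw [spa_refl_minus i j hij.ne]
    simp only [Pi.sub_apply, Pi.smul_apply, smul_eq_mul, Pi.single_apply, posRoot2, Bool.false_eq_true,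
      ↓reduceIte]
    ring
  · refine ⟨i, j, true, Equiv.swap i j, fun k => decide (k = i ∨ k = j), -(y i + 1 * y j), hij,
      evenS_pair i j hij.ne, by omega, by simp, fun k => ?_⟩
    rw [spa_refl_plus i j hij.ne]
    simp only [Pi.sub_apply, Pi.add_apply, Pi.smul_apply, smul_eq_mul, Pi.single_apply, posRoot2,
      ↓reduceIte]
    ring

theorem wdc_improve_pair {y y' β δ : Fin n → ℤ} {m : ℤ} (h : ∀ k, 2 * y' k = 2 * y k + m * β k) :
    2 * ∑ k, y' k * δ k = 2 * ∑ k, y k * δ k + m * ∑ k, β k * δ k := by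
  simp only [Finset.mul_sum, ← Finset.sum_add_distrib]
  refine Finset.sum_congr rfl fun k _ => ?_
  calc 2 * (y' k * δ k) = (2 * y' k) * δ k := by ring
    _ = _ := by rw [h k]; ring

/-- (K11) `ρ` -/
theorem rho2_reg : RegZ2 (rho2 n) := by
  intro i j hij
  have h1 : (i : ℕ) < (j : ℕ) := hij
  have h2 : (j : ℕ) < n := j.2
  unfold rho2
  rw [abs_of_nonneg (by omega)]
  omega

theorem rho2_dominant : IsDominantWeight2 (rho2 n) :=
  ⟨fun i j => ⟨((n : ℤ) - 1 - (i : ℕ)) - ((n : ℤ) - 1 - (j : ℕ)), by unfold rho2; ring⟩,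
    fun i j hij => (rho2_reg i j hij).le⟩

theorem add_rho2_reg (L : Fin n → ℤ) (hL : IsDominantWeight2 L) : RegZ2 (L + rho2 n) := by
  intro i j hij
  have h1 := hL.2 i j hij
  have h2 := rho2_reg i j hij
  have h3 := abs_add_le (L j) (rho2 n j)
  simp only [Pi.add_apply]
  omega

/-- (K6) every vector can be moved to the dominant chamber -/
theorem exists_domZ2 (ν : Fin n → ℤ) :
    ∃ (σ : Equiv.Perm (Fin n)) (s : Fin n → Bool), evenS s ∧ DomZ2 (signedPermAct σ s ν) := by
  classical
  have : Nonempty {p : Equiv.Perm (Fin n) × (Fin n → Bool) // evenS p.2} :=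
    ⟨⟨(1, fun _ => false), evenS_false⟩⟩
  obtain ⟨⟨⟨σ, s⟩, hs⟩, hmax⟩ := Finite.exists_max
    (fun p : {p : Equiv.Perm (Fin n) × (Fin n → Bool) // evenS p.2} =>
      ∑ i, signedPermAct p.1.1 p.1.2 ν i * rho2 n i)
  refine ⟨σ, s, hs, ?_⟩
  by_contra hd
  obtain ⟨i, j, b, τ, t, m, hij, ht, hm, -, hy'⟩ := wdc_improve _ hd
  have h1 := wdc_improve_pair (δ := rho2 n) hy'
  have h2 := wdc_root_pair_pos i j hij b (rho2 n) rho2_reg
  have h3 := hmax ⟨(τ * σ, fun i => xor (t i) (s (τ.symm i))), evenS_comp τ t s ht hs⟩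
  simp only [← spa_comp] at h3
  have h4 := mul_pos hm h2
  omega

theorem wdc_abs_inj (δ : Fin n → ℤ) (hδ : RegZ2 δ) {i j : Fin n} (h : |δ i| = |δ j|) : i = j := by
  by_contra hne
  rcases lt_or_gt_of_ne hne with hlt | hlt
  · have h1 := hδ i j hlt
    have h2 := le_abs_self (δ i)
    omega
  · have h1 := hδ j i hlt
    have h2 := le_abs_self (δ j)
    omega

theorem wdc_abs_act (σ : Equiv.Perm (Fin n)) (s : Fin n → Bool) (x : Fin n → ℤ) (i : Fin n) :
    |signedPermAct σ s x i| = |x (σ.symm i)| := by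
  simp only [signedPermAct, abs_mul]
  split_ifs <;> simp

/-- (K7) strictly dominant vectors have trivial stabiliser -/
theorem spa_stab (δ : Fin n → ℤ) (hδ : RegZ2 δ) (σ : Equiv.Perm (Fin n)) (s : Fin n → Bool)
    (hs : evenS s) (h : signedPermAct σ s δ = δ) : σ = 1 ∧ s = fun _ => false := by
  have hσ : σ = 1 := by
    ext i
    have h1 := wdc_abs_act σ s δ (σ i)
    rw [h, Equiv.symm_apply_apply] at h1
    rw [wdc_abs_inj δ hδ h1]
    rfl
  subst hσ
  refine ⟨rfl, ?_⟩
  have hz : ∀ i, s i = true → δ i = 0 := by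
    intro i hi
    have h1 : (if s i = true then (-1 : ℤ) else 1) * δ i = δ i := congrFun h i
    rw [if_pos hi] at h1
    omega
  by_contra hne
  obtain ⟨i, hi⟩ : ∃ i, s i = true := by
    by_contra hall
    push Not at hall
    exact hne (funext fun i => by simpa using hall i)
  have hcard : 1 < (Finset.univ.filter fun i => s i = true).card := by
    have hpos : 0 < (Finset.univ.filter fun i => s i = true).card :=
      Finset.card_pos.2 ⟨i, by simp [hi]⟩
    obtain ⟨m, hm⟩ := hs
    omega
  obtain ⟨a, ha, b, hb, hab⟩ := Finset.one_lt_card.1 hcard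
  refine hab (wdc_abs_inj δ hδ ?_)
  rw [hz a (Finset.mem_filter.1 ha).2, hz b (Finset.mem_filter.1 hb).2]

theorem wdc_prod_act (σ : Equiv.Perm (Fin n)) (s : Fin n → Bool) (hs : evenS s) (x : Fin n → ℤ) :
    ∏ i, signedPermAct σ s x i = ∏ i, x i := by
  simp only [signedPermAct]
  rw [Finset.prod_mul_distrib, Equiv.prod_comp σ.symm x]
  have := (evenS_iff s).1 hs
  unfold wdkP at this
  rw [this, one_mul]

theorem wdc_antitone (δ : Fin n → ℤ) (hδ : DomZ2 δ) : Antitone (fun i => |δ i|) := by
  intro i j hij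
  rcases hij.lt_or_eq with h | h
  · exact (hδ i j h).trans (le_abs_self _)
  · rw [h]

/-- (K8) the dominant chamber is a fundamental domain -/
theorem spa_dom_unique (δ : Fin n → ℤ) (hδ : DomZ2 δ) (σ : Equiv.Perm (Fin n)) (s : Fin n → Bool)
    (hs : evenS s) (h : DomZ2 (signedPermAct σ s δ)) : signedPermAct σ s δ = δ := by
  classical
  set y := signedPermAct σ s δ with hy
  have habs : ∀ i, |y i| = |δ i| := by
    have h1 : Antitone ((fun i => |δ i|) ∘ (σ.symm : Equiv.Perm (Fin n))) := by
      have h2 := wdc_antitone y h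
      have e : ((fun i => |δ i|) ∘ (σ.symm : Equiv.Perm (Fin n))) = fun i => |y i| := by
        ext i
        exact (wdc_abs_act σ s δ i).symm
      rw [e]
      exact h2
    have h3 : Antitone ((fun i => |δ i|) ∘ (1 : Equiv.Perm (Fin n))) := wdc_antitone δ hδ
    have h4 := Tuple.unique_antitone h1 h3
    intro i
    rw [hy, wdc_abs_act]
    exact congrFun h4 i
  have hnl : ∀ i j : Fin n, i < j → y i = δ i := by
    intro i j hij
    have h1 : 0 ≤ y i := (abs_nonneg _).trans (h i j hij)
    have h2 : 0 ≤ δ i := (abs_nonneg _).trans (hδ i j hij)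
    have h3 := habs i
    rwa [abs_of_nonneg h1, abs_of_nonneg h2] at h3
  ext i
  by_cases hex : ∃ j, i < j
  · obtain ⟨j, hj⟩ := hex
    exact hnl i j hj
  · push Not at hex
    have hoth : ∀ k, k ≠ i → y k = δ k := fun k hk => hnl k i (lt_of_le_of_ne (hex k) hk)
    have hprod := wdc_prod_act σ s hs δ
    rw [← hy, ← Finset.mul_prod_erase Finset.univ y (Finset.mem_univ i),
      ← Finset.mul_prod_erase Finset.univ δ (Finset.mem_univ i),
      Finset.prod_congr rfl (fun k hk => hoth k (Finset.ne_of_mem_erase hk))] at hprod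
    by_cases hQ : ∏ k ∈ Finset.univ.erase i, δ k = 0
    · obtain ⟨k, hk, hk0⟩ := Finset.prod_eq_zero_iff.1 hQ
      have hki : k < i := lt_of_le_of_ne (hex k) (Finset.ne_of_mem_erase hk)
      have h1 := hδ k i hki
      rw [hk0] at h1
      have h2 : δ i = 0 := abs_eq_zero.1 (le_antisymm h1 (abs_nonneg _))
      have h3 := habs i
      rw [h2, abs_zero] at h3
      rw [h2]
      exact abs_eq_zero.1 h3
    · exact mul_right_cancel₀ hQ hprod

theorem qplus_add (q q' : Fin n → ℤ) (hq : InQplus q) (hq' : InQplus q') : InQplus (q + q') := by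
  obtain ⟨c, rfl⟩ := hq
  obtain ⟨c', rfl⟩ := hq'
  exact ⟨c + c', by simp only [Pi.add_apply, add_smul, Finset.sum_add_distrib]⟩

theorem wdc_even_act (σ : Equiv.Perm (Fin n)) (s : Fin n → Bool) (x : Fin n → ℤ) (i : Fin n) :
    Even (signedPermAct σ s x i) ↔ Even (x (σ.symm i)) := by
  simp only [signedPermAct]
  split_ifs <;> simp

/-- (K9) `δ - wδ ∈ Q₊` for dominant weights -/
theorem dom_sub_mem (δ : Fin n → ℤ) (hδ : IsDominantWeight2 δ) (σ : Equiv.Perm (Fin n))
    (s : Fin n → Bool) (hs : evenS s) : InQplus (δ - signedPermAct σ s δ) := by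
  classical
  obtain ⟨B, hB⟩ : ∃ B : ℤ, ∀ (σ : Equiv.Perm (Fin n)) (s : Fin n → Bool),
      ∑ i, signedPermAct σ s δ i * rho2 n i ≤ B := by
    obtain ⟨B, hB⟩ := Finite.bddAbove_range
      (fun p : Equiv.Perm (Fin n) × (Fin n → Bool) => ∑ i, signedPermAct p.1 p.2 δ i * rho2 n i)
    exact ⟨B, fun σ s => hB ⟨(σ, s), rfl⟩⟩
  have hpar : ∀ a b : Fin n, (Even (δ a) ↔ Even (δ b)) := fun a b => Int.even_sub.1 (hδ.1 a b)
  have key : ∀ (k : ℕ) (σ : Equiv.Perm (Fin n)) (s : Fin n → Bool), evenS s →
      (B - ∑ i, signedPermAct σ s δ i * rho2 n i).toNat = k → InQplus (δ - signedPermAct σ s δ) := by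
    intro k
    induction k using Nat.strong_induction_on with
    | _ k ih =>
      intro σ s hs hk
      by_cases hd : DomZ2 (signedPermAct σ s δ)
      · rw [spa_dom_unique δ hδ.2 σ s hs hd, sub_self]
        exact wdc_qplus_zero
      · obtain ⟨i, j, b, τ, t, m, hij, ht, hm, hme, hy'⟩ := wdc_improve _ hd
        have hmev : Even m := by
          rw [hme, even_neg, Int.even_add, wdc_even_act]
          have e : Even ((if b = true then (1 : ℤ) else -1) * signedPermAct σ s δ j) ↔
              Even (signedPermAct σ s δ j) := by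
            split_ifs <;> simp
          rw [e, wdc_even_act]
          exact hpar _ _
        obtain ⟨q, hq⟩ := hmev
        have h1 := wdc_improve_pair (δ := rho2 n) hy'
        have h2 := wdc_root_pair_pos i j hij b (rho2 n) rho2_reg
        have h4 := mul_pos hm h2
        have hev := evenS_comp τ t s ht hs
        have hcomp := spa_comp τ σ t s δ
        have hB' := hB (τ * σ) (fun i => xor (t i) (s (τ.symm i)))
        have hlt : (B - ∑ i, signedPermAct (τ * σ) (fun i => xor (t i) (s (τ.symm i))) δ i * rho2 n i).toNat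
            < k := by
          rw [← hcomp] at hB' ⊢
          omega
        have ih' := ih _ hlt (τ * σ) _ hev rfl
        rw [← hcomp] at ih'
        have e : δ - signedPermAct σ s δ =
            (δ - signedPermAct τ t (signedPermAct σ s δ)) + q.toNat • posRoot2 i j b := by
          ext k
          have h5 := hy' k
          have h6 : ((q.toNat : ℕ) : ℤ) = q := Int.toNat_of_nonneg (by omega)
          simp only [Pi.sub_apply, Pi.add_apply, Pi.smul_apply]
          rw [nsmul_eq_mul, h6]
          rw [hq] at h5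
          linarith
        rw [e]
        exact qplus_add _ _ ih' (wdc_qplus_root i j hij b _)
  exact key _ σ s hs rfl

/-- (K10) pairing of `Q₊` with the chamber -/
theorem qplus_pair_nonneg (q : Fin n → ℤ) (hq : InQplus q) (δ : Fin n → ℤ) (hδ : DomZ2 δ) :
    0 ≤ ∑ i, q i * δ i := by
  obtain ⟨c, rfl⟩ := hq
  rw [wdc_pair_sum]
  exact Finset.sum_nonneg fun r _ =>
    mul_nonneg (Int.natCast_nonneg _) (wdc_root_pair_nonneg _ _ r.2 _ δ hδ)

theorem qplus_pair_pos (q : Fin n → ℤ) (hq : InQplus q) (hq0 : q ≠ 0) (δ : Fin n → ℤ)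
    (hδ : RegZ2 δ) : 0 < ∑ i, q i * δ i := by
  obtain ⟨c, rfl⟩ := hq
  rw [wdc_pair_sum]
  obtain ⟨r, hr⟩ : ∃ r, c r ≠ 0 := by
    by_contra hall
    push Not at hall
    exact hq0 (Finset.sum_eq_zero fun r _ => by rw [hall r, zero_smul])
  refine Finset.sum_pos' (fun r _ => mul_nonneg (Int.natCast_nonneg _)
    (wdc_root_pair_pos _ _ r.2 _ δ hδ).le) ⟨r, Finset.mem_univ r, ?_⟩
  exact mul_pos (by exact_mod_cast Nat.pos_of_ne_zero hr) (wdc_root_pair_pos _ _ r.2 _ δ hδ)

theorem qplus_antisymm (q : Fin n → ℤ) (hq : InQplus q) (hq' : InQplus (-q)) : q = 0 := by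
  by_contra h0
  have h1 := qplus_pair_pos q hq h0 (rho2 n) rho2_reg
  have h2 := qplus_pair_nonneg (-q) hq' (rho2 n) (fun i j hij => (rho2_reg i j hij).le)
  simp only [Pi.neg_apply, neg_mul, Finset.sum_neg_distrib] at h2
  omega

/-- `2ρ = ∑_(β>0) β` (doubled: `2 • rho2 = ∑ posRoot2`) -/
theorem two_rho2 :
    2 • rho2 n = ∑ r : {r : Fin n × Fin n × Bool // r.1 < r.2.1}, posRoot2 r.1.1 r.1.2.1 r.1.2.2 := by
  classical
  ext k
  rw [Finset.sum_apply]
  have e1 : ∑ r : {r : Fin n × Fin n × Bool // r.1 < r.2.1}, posRoot2 r.1.1 r.1.2.1 r.1.2.2 k =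
      ∑ r ∈ Finset.univ.filter (fun r : Fin n × Fin n × Bool => r.1 < r.2.1), posRoot2 r.1 r.2.1 r.2.2 k :=
    (Finset.sum_subtype (Finset.univ.filter fun r : Fin n × Fin n × Bool => r.1 < r.2.1) (by simp)
      (fun r => posRoot2 r.1 r.2.1 r.2.2 k)).symm
  rw [e1, Finset.sum_filter, Fintype.sum_prod_type]
  simp only [Fintype.sum_prod_type, Fintype.sum_bool]
  have e2 : ∀ i j : Fin n, ((if i < j then posRoot2 i j true k else 0) +
      (if i < j then posRoot2 i j false k else 0)) = if k = i then (if k < j then 4 else 0) else 0 := by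
    intro i j
    have e : posRoot2 i j true k + posRoot2 i j false k = if k = i then 4 else 0 := by
      unfold posRoot2
      simp only [Bool.false_eq_true, ↓reduceIte]
      split_ifs <;> ring
    by_cases hij : i < j
    · rw [if_pos hij, if_pos hij, e]
      by_cases hki : k = i
      · rw [if_pos hki, if_pos hki, hki, if_pos hij]
      · rw [if_neg hki, if_neg hki]
    · rw [if_neg hij, if_neg hij, add_zero]
      by_cases hki : k = i
      · rw [if_pos hki, hki, if_neg hij]
      · rw [if_neg hki]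
  simp only [e2]
  rw [Finset.sum_comm]
  simp only [Finset.sum_ite_eq, Finset.mem_univ, if_true]
  rw [← Finset.sum_filter, Finset.sum_const]
  have e3 : (Finset.univ.filter fun j : Fin n => k < j) = Finset.Ioi k := by
    ext j
    simp
  rw [e3, Fin.card_Ioi]
  have h2 : (k : ℕ) < n := k.2
  simp only [Pi.smul_apply, rho2, nsmul_eq_mul]
  push_cast [Nat.cast_sub (show (k : ℕ) ≤ n - 1 by omega), Nat.cast_sub (show 1 ≤ n by omega)]
  ring

end Claimed.Agent.R282
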