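import Claimed.Agent.R282.Rep.Defs

/-!
# Row 282, Rep, LEAF L-C-WDKIT-GRP : `W(D_n)` in the `(σ, s)` parametrisation of `Def_0456`: group structure, alternating sums, reflections (statements by helper103), ~450 lines

Everything is elementary (signed permutations of `Fin n → ℤ`).
(K4): reindex the double sum over `(σ, s)` by the bijection `(σ, s) ↦ (τ σ, i ↦ t i xor s (τ⁻¹ i))` (resp. `(σ τ, …)`) given by (K1); it preserves `evenS` (`evenS_comp`; parity of the number of `true` is additive under `xor`:
`∏ (-1)^(s i)` is multiplicative) and multiplies the sign by `sign τ`.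
(K5'): `W(D_n)` is generated by the reflections: first `σ` is a product of transpositions (`Equiv.Perm.swap_induction_on`), then an even sign pattern is a product of pair sign changes
`x ↦ ` (negate coordinates `i`, `j`) `= s_(e_i - e_j) s_(e_i + e_j)`; induction on the number of `true`.
-/

set_option autoImplicit false

namespace Claimed.Agent.R282

open Claims.C0456

variable {n : ℕ}

/-- an even number of sign changes -/
def evenS (s : Fin n → Bool) : Prop := Even (Finset.univ.filter fun i => s i = true).card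

instance wdkDec (s : Fin n → Bool) : Decidable (evenS s) :=
  inferInstanceAs (Decidable (Even (Finset.univ.filter fun i => s i = true).card))

/-- weakly dominant -/
def DomZ2 (x : Fin n → ℤ) : Prop := ∀ i j : Fin n, i < j → |x j| ≤ x i

/-- strictly dominant -/
def RegZ2 (x : Fin n → ℤ) : Prop := ∀ i j : Fin n, i < j → |x j| < x i

/-! ### auxiliary: the sign product -/

/-- `∏ (-1)^(s i)` -/
def wdkP (s : Fin n → Bool) : ℤ := ∏ i, (if s i then (-1 : ℤ) else 1)

theorem wdkP_eq (s : Fin n → Bool) : wdkP s = (-1 : ℤ) ^ (Finset.univ.filter fun i => s i = true).card := by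
  unfold wdkP
  rw [Finset.prod_ite, Finset.prod_const, Finset.prod_const_one, mul_one]

theorem evenS_iff (s : Fin n → Bool) : evenS s ↔ wdkP s = 1 := by
  rw [wdkP_eq, neg_one_pow_eq_one_iff_even (by norm_num)]
  rfl

theorem wdk_sg_xor (a b : Bool) :
    (if xor a b then (-1 : ℤ) else 1) = (if a then (-1 : ℤ) else 1) * (if b then (-1 : ℤ) else 1) := by
  cases a <;> cases b <;> rfl

theorem wdk_sg_sq (a : Bool) : (if a then (-1 : ℤ) else 1) * (if a then (-1 : ℤ) else 1) = 1 := by
  cases a <;> rfl

theorem wdk_xor_xor (a b : Bool) : xor (xor a b) b = a := by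
  cases a <;> cases b <;> rfl

theorem wdkP_xor (a b : Fin n → Bool) : wdkP (fun i => xor (a i) (b i)) = wdkP a * wdkP b := by
  unfold wdkP
  rw [← Finset.prod_mul_distrib]
  exact Finset.prod_congr rfl fun i _ => wdk_sg_xor _ _

theorem wdkP_perm (σ : Equiv.Perm (Fin n)) (a : Fin n → Bool) : wdkP (fun i => a (σ i)) = wdkP a := by
  unfold wdkP
  exact Equiv.prod_comp σ (fun i => if a i then (-1 : ℤ) else 1)

theorem spa_one (x : Fin n → ℤ) : signedPermAct 1 (fun _ => false) x = x := by
  ext i
  show (if false = true then (-1 : ℤ) else 1) * x i = x i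
  simp

/-- (K1) composition -/
theorem spa_comp (σ τ : Equiv.Perm (Fin n)) (s t : Fin n → Bool) (x : Fin n → ℤ) :
    signedPermAct σ s (signedPermAct τ t x) =
      signedPermAct (σ * τ) (fun i => xor (s i) (t (σ.symm i))) x := by
  ext i
  simp only [signedPermAct, Equiv.Perm.mul_def, Equiv.symm_trans_apply, wdk_sg_xor]
  ring

theorem evenS_comp (σ : Equiv.Perm (Fin n)) (s t : Fin n → Bool) (hs : evenS s) (ht : evenS t) :
    evenS (fun i => xor (s i) (t (σ.symm i))) := by
  rw [evenS_iff] at *
  rw [wdkP_xor s (fun i => t (σ.symm i)), wdkP_perm σ.symm t, hs, ht, mul_one]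

/-- (K2) linearity and isometry -/
theorem spa_add (σ : Equiv.Perm (Fin n)) (s : Fin n → Bool) (x y : Fin n → ℤ) :
    signedPermAct σ s (x + y) = signedPermAct σ s x + signedPermAct σ s y := by
  ext i
  simp [signedPermAct, mul_add]

theorem spa_smul (σ : Equiv.Perm (Fin n)) (s : Fin n → Bool) (c : ℤ) (x : Fin n → ℤ) :
    signedPermAct σ s (c • x) = c • signedPermAct σ s x := by
  ext i
  simp only [signedPermAct, Pi.smul_apply, smul_eq_mul]
  ring

theorem spa_dot (σ : Equiv.Perm (Fin n)) (s : Fin n → Bool) (x y : Fin n → ℤ) :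
    ∑ i, signedPermAct σ s x i * signedPermAct σ s y i = ∑ i, x i * y i := by
  rw [← Equiv.sum_comp σ.symm (fun i => x i * y i)]
  refine Finset.sum_congr rfl fun i _ => ?_
  simp only [signedPermAct]
  calc _ = ((if s i then (-1 : ℤ) else 1) * (if s i then (-1 : ℤ) else 1)) *
        (x (σ.symm i) * y (σ.symm i)) := by ring
    _ = _ := by rw [wdk_sg_sq, one_mul]

theorem spa_injective (σ : Equiv.Perm (Fin n)) (s : Fin n → Bool) :
    Function.Injective (signedPermAct σ s) := by
  intro x y h
  ext j
  have h1 := congrFun h (σ j)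
  simp only [signedPermAct, Equiv.symm_apply_apply] at h1
  cases hs : s (σ j) <;> simp [hs] at h1 <;> exact h1

/-- (K3) inverse -/
theorem spa_inv (σ : Equiv.Perm (Fin n)) (s : Fin n → Bool) (hs : evenS s) :
    ∃ (τ : Equiv.Perm (Fin n)) (t : Fin n → Bool), evenS t ∧ Equiv.Perm.sign τ = Equiv.Perm.sign σ ∧
      (∀ x, signedPermAct τ t (signedPermAct σ s x) = x) ∧
      ∀ x, signedPermAct σ s (signedPermAct τ t x) = x := by
  refine ⟨σ⁻¹, fun i => s (σ i), ?_, Equiv.Perm.sign_inv σ, fun x => ?_, fun x => ?_⟩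
  · rw [evenS_iff] at *
    rw [wdkP_perm σ s, hs]
  · rw [spa_comp, inv_mul_cancel]
    convert spa_one x using 2
    ext i
    show xor (s (σ i)) (s (σ i)) = false
    simp
  · rw [spa_comp, mul_inv_cancel]
    convert spa_one x using 2
    ext i
    simp

/-- twisting of sign patterns -/
def wdkX (u : Fin n → Bool) : (Fin n → Bool) ≃ (Fin n → Bool) where
  toFun s := fun i => xor (s i) (u i)
  invFun s := fun i => xor (s i) (u i)
  left_inv s := by
    ext i
    exact wdk_xor_xor _ _
  right_inv s := by
    ext i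
    exact wdk_xor_xor _ _

/-- transport of sign patterns -/
def wdkT (τ : Equiv.Perm (Fin n)) : (Fin n → Bool) ≃ (Fin n → Bool) where
  toFun s := fun i => s (τ.symm i)
  invFun s := fun i => s (τ i)
  left_inv s := by
    ext i
    simp
  right_inv s := by
    ext i
    simp

theorem wdk_sign_sq (τ : Equiv.Perm (Fin n)) :
    ((Equiv.Perm.sign τ : ℤˣ) : ℤ) * ((Equiv.Perm.sign τ : ℤˣ) : ℤ) = 1 := by
  rcases Int.units_eq_one_or (Equiv.Perm.sign τ) with h | h <;> rw [h] <;> simp

/-- (K4) alternation of `altWD` -/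
theorem altWD_comp (τ : Equiv.Perm (Fin n)) (t : Fin n → Bool) (ht : evenS t)
    (F : (Fin n → ℤ) → ℤ) (x : Fin n → ℤ) :
    altWD (fun y => F (signedPermAct τ t y)) x = ((Equiv.Perm.sign τ : ℤˣ) : ℤ) * altWD F x := by
  show (∑ σ : Equiv.Perm (Fin n), ∑ s : Fin n → Bool,
      if evenS s then ((Equiv.Perm.sign σ : ℤˣ) : ℤ) * F (signedPermAct τ t (signedPermAct σ s x)) else 0) =
    ((Equiv.Perm.sign τ : ℤˣ) : ℤ) * ∑ σ : Equiv.Perm (Fin n), ∑ s : Fin n → Bool,
      if evenS s then ((Equiv.Perm.sign σ : ℤˣ) : ℤ) * F (signedPermAct σ s x) else 0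
  rw [Finset.mul_sum]
  refine Fintype.sum_equiv (Equiv.mulLeft τ) _ _ fun σ => ?_
  rw [Finset.mul_sum]
  refine Fintype.sum_equiv ((wdkT τ).trans (wdkX t)) _ _ fun s => ?_
  have e1 : ((wdkT τ).trans (wdkX t)) s = fun i => xor (t i) (s (τ.symm i)) := by
    ext i
    show xor (s (τ.symm i)) (t i) = _
    rw [Bool.xor_comm]
  have e2 : evenS (fun i => xor (t i) (s (τ.symm i))) ↔ evenS s := by
    rw [evenS_iff, evenS_iff, wdkP_xor t (fun i => s (τ.symm i)), wdkP_perm τ.symm s,
      (evenS_iff t).1 ht, one_mul]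
  rw [e1, spa_comp]
  by_cases hs : evenS s
  · rw [if_pos hs, if_pos (e2.2 hs)]
    show _ = _ * (((Equiv.Perm.sign (τ * σ) : ℤˣ) : ℤ) *
      F (signedPermAct (τ * σ) (fun i => xor (t i) (s (τ.symm i))) x))
    rw [Equiv.Perm.sign_mul, Units.val_mul, ← mul_assoc, ← mul_assoc, wdk_sign_sq, one_mul]
  · rw [if_neg hs, if_neg (fun h => hs (e2.1 h)), mul_zero]

theorem altWD_act (τ : Equiv.Perm (Fin n)) (t : Fin n → Bool) (ht : evenS t)
    (F : (Fin n → ℤ) → ℤ) (x : Fin n → ℤ) :
    altWD F (signedPermAct τ t x) = ((Equiv.Perm.sign τ : ℤˣ) : ℤ) * altWD F x := by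
  show (∑ σ : Equiv.Perm (Fin n), ∑ s : Fin n → Bool,
      if evenS s then ((Equiv.Perm.sign σ : ℤˣ) : ℤ) * F (signedPermAct σ s (signedPermAct τ t x)) else 0) =
    ((Equiv.Perm.sign τ : ℤˣ) : ℤ) * ∑ σ : Equiv.Perm (Fin n), ∑ s : Fin n → Bool,
      if evenS s then ((Equiv.Perm.sign σ : ℤˣ) : ℤ) * F (signedPermAct σ s x) else 0
  rw [Finset.mul_sum]
  refine Fintype.sum_equiv (Equiv.mulRight τ) _ _ fun σ => ?_
  rw [Finset.mul_sum]
  refine Fintype.sum_equiv (wdkX (fun i => t (σ.symm i))) _ _ fun s => ?_
  have e1 : (wdkX (fun i => t (σ.symm i))) s = fun i => xor (s i) (t (σ.symm i)) := rfl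
  have e2 : evenS (fun i => xor (s i) (t (σ.symm i))) ↔ evenS s := by
    rw [evenS_iff, evenS_iff, wdkP_xor s (fun i => t (σ.symm i)), wdkP_perm σ.symm t,
      (evenS_iff t).1 ht, mul_one]
  rw [e1, spa_comp]
  by_cases hs : evenS s
  · rw [if_pos hs, if_pos (e2.2 hs)]
    show _ = _ * (((Equiv.Perm.sign (σ * τ) : ℤˣ) : ℤ) *
      F (signedPermAct (σ * τ) (fun i => xor (s i) (t (σ.symm i))) x))
    rw [Equiv.Perm.sign_mul, Units.val_mul,
      mul_comm ((Equiv.Perm.sign σ : ℤˣ) : ℤ) ((Equiv.Perm.sign τ : ℤˣ) : ℤ), ← mul_assoc,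
      ← mul_assoc, wdk_sign_sq, one_mul]
  · rw [if_neg hs, if_neg (fun h => hs (e2.1 h)), mul_zero]

/-- (K5) the reflections in the roots -/
theorem spa_refl_minus (i j : Fin n) (hij : i ≠ j) (x : Fin n → ℤ) :
    signedPermAct (Equiv.swap i j) (fun _ => false) x =
      x - (x i - x j) • (Pi.single i 1 - Pi.single j 1 : Fin n → ℤ) := by
  ext k
  simp only [signedPermAct, Equiv.symm_swap, Pi.sub_apply, Pi.smul_apply, smul_eq_mul, Pi.single_apply]
  by_cases hki : k = i
  · subst hki
    simp [hij]
  · by_cases hkj : k = j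
    · subst hkj
      simp [hki]
    · simp [hki, hkj, Equiv.swap_apply_of_ne_of_ne hki hkj]

theorem spa_refl_plus (i j : Fin n) (hij : i ≠ j) (x : Fin n → ℤ) :
    signedPermAct (Equiv.swap i j) (fun k => decide (k = i ∨ k = j)) x =
      x - (x i + x j) • (Pi.single i 1 + Pi.single j 1 : Fin n → ℤ) := by
  ext k
  simp only [signedPermAct, Equiv.symm_swap, Pi.sub_apply, Pi.add_apply, Pi.smul_apply, smul_eq_mul,
    Pi.single_apply]
  by_cases hki : k = i
  · subst hki
    simp [hij]
  · by_cases hkj : k = j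
    · subst hkj
      simp [hki]
    · simp [hki, hkj, Equiv.swap_apply_of_ne_of_ne hki hkj]

theorem evenS_pair (i j : Fin n) (hij : i ≠ j) : evenS (fun k => decide (k = i ∨ k = j)) := by
  unfold evenS
  have : (Finset.univ.filter fun k : Fin n => decide (k = i ∨ k = j) = true) = {i, j} := by
    ext k
    simp
  rw [this, Finset.card_pair hij]
  exact even_two

theorem evenS_false : evenS (fun _ : Fin n => false) := by
  unfold evenS
  simp

/-- (K5') a function invariant under the reflections is invariant under `W(D_n)` -/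
theorem spa_induction (P : (Fin n → ℤ) → (Fin n → ℤ) → Prop) (hrefl : ∀ x, P x x)
    (htrans : ∀ x y z, P x y → P y z → P x z)
    (hm : ∀ i j, i ≠ j → ∀ x, P x (signedPermAct (Equiv.swap i j) (fun _ => false) x))
    (hp : ∀ i j, i ≠ j → ∀ x, P x (signedPermAct (Equiv.swap i j) (fun k => decide (k = i ∨ k = j)) x))
    (σ : Equiv.Perm (Fin n)) (s : Fin n → Bool) (hs : evenS s) (x : Fin n → ℤ) :
    P x (signedPermAct σ s x) := by
  -- permutations
  have h1 : ∀ (σ : Equiv.Perm (Fin n)) (x : Fin n → ℤ), P x (signedPermAct σ (fun _ => false) x) := by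
    intro σ
    induction σ using Equiv.Perm.swap_induction_on with
    | one =>
      intro x
      rw [spa_one]
      exact hrefl x
    | swap_mul f a b hab ih =>
      intro x
      have e : signedPermAct (Equiv.swap a b * f) (fun _ => false) x =
          signedPermAct (Equiv.swap a b) (fun _ => false) (signedPermAct f (fun _ => false) x) := by
        rw [spa_comp]
        rfl
      rw [e]
      exact htrans _ _ _ (ih x) (hm a b hab _)
  -- pair sign changes
  have h2 : ∀ i j : Fin n, i ≠ j → ∀ x, P x (signedPermAct 1 (fun k => decide (k = i ∨ k = j)) x) := by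
    intro i j hij x
    have e : signedPermAct 1 (fun k => decide (k = i ∨ k = j)) x =
        signedPermAct (Equiv.swap i j) (fun _ => false)
          (signedPermAct (Equiv.swap i j) (fun k => decide (k = i ∨ k = j)) x) := by
      rw [spa_comp, Equiv.swap_mul_self]
      congr 1
      ext k
      simp only [Equiv.symm_swap, Bool.false_xor]
      by_cases hki : k = i
      · subst hki
        simp
      · by_cases hkj : k = j
        · subst hkj
          simp
        · simp [hki, hkj, Equiv.swap_apply_of_ne_of_ne hki hkj]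
    rw [e]
    exact htrans _ _ _ (hp i j hij x) (hm i j hij _)
  -- even sign patterns
  have h3 : ∀ (k : ℕ) (s : Fin n → Bool), (Finset.univ.filter fun i => s i = true).card = k → evenS s →
      ∀ x, P x (signedPermAct 1 s x) := by
    intro k
    induction k using Nat.strong_induction_on with
    | _ k ih =>
      intro s hk hs x
      by_cases h0 : k = 0
      · have hs0 : s = fun _ => false := by
          rw [h0, Finset.card_eq_zero, Finset.filter_eq_empty_iff] at hk
          ext i
          simpa using hk (Finset.mem_univ i)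
        rw [hs0, spa_one]
        exact hrefl x
      · have h2k : 1 < (Finset.univ.filter fun i => s i = true).card := by
          have : Even k := hk ▸ hs
          obtain ⟨m, hm'⟩ := this
          omega
        obtain ⟨i, hi, j, hj, hij⟩ := Finset.one_lt_card.1 h2k
        have hi' : s i = true := (Finset.mem_filter.1 hi).2
        have hj' : s j = true := (Finset.mem_filter.1 hj).2
        set s' : Fin n → Bool := fun k => xor (s k) (decide (k = i ∨ k = j)) with hs'
        have hs'e : evenS s' := evenS_comp 1 s _ hs (evenS_pair i j hij)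
        have hlt : (Finset.univ.filter fun i => s' i = true).card < k := by
          rw [← hk]
          refine Finset.card_lt_card ?_
          rw [Finset.ssubset_iff_of_subset]
          · refine ⟨i, hi, ?_⟩
            simp [hs', hi']
          · intro a ha
            have ha' : s' a = true := (Finset.mem_filter.1 ha).2
            refine Finset.mem_filter.2 ⟨Finset.mem_univ _, ?_⟩
            by_contra hsa
            have hsa' : s a = false := by simpa using hsa
            simp only [hs', hsa', Bool.false_xor, decide_eq_true_eq] at ha'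
            rcases ha' with rfl | rfl
            · rw [hi'] at hsa'
              exact Bool.noConfusion hsa'
            · rw [hj'] at hsa'
              exact Bool.noConfusion hsa'
        have e : signedPermAct 1 s x =
            signedPermAct 1 s' (signedPermAct 1 (fun k => decide (k = i ∨ k = j)) x) := by
          rw [spa_comp, one_mul]
          congr 1
          ext a
          exact (wdk_xor_xor _ _).symm
        rw [e]
        exact htrans _ _ _ (h2 i j hij x) (ih _ hlt s' rfl hs'e _)
  have e : signedPermAct σ s x = signedPermAct 1 s (signedPermAct σ (fun _ => false) x) := by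
    rw [spa_comp, one_mul]
    congr 1
    ext a
    simp
  rw [e]
  exact htrans _ _ _ (h1 σ x) (h3 _ s rfl hs _)

/-! ### further tools on `altWD` -/

theorem altWD_def' (F : (Fin n → ℤ) → ℤ) (x : Fin n → ℤ) :
    altWD F x = ∑ σ : Equiv.Perm (Fin n), ∑ s : Fin n → Bool,
      if evenS s then ((Equiv.Perm.sign σ : ℤˣ) : ℤ) * F (signedPermAct σ s x) else 0 := rfl

theorem altWD_congr {F G : (Fin n → ℤ) → ℤ} (x : Fin n → ℤ)
    (h : ∀ σ s, evenS s → F (signedPermAct σ s x) = G (signedPermAct σ s x)) :
    altWD F x = altWD G x := by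
  rw [altWD_def', altWD_def']
  refine Finset.sum_congr rfl fun σ _ => Finset.sum_congr rfl fun s _ => ?_
  by_cases hs : evenS s
  · rw [if_pos hs, if_pos hs, h σ s hs]
  · rw [if_neg hs, if_neg hs]

theorem altWD_sub (F G : (Fin n → ℤ) → ℤ) (x : Fin n → ℤ) :
    altWD (fun y => F y - G y) x = altWD F x - altWD G x := by
  rw [altWD_def', altWD_def', altWD_def', ← Finset.sum_sub_distrib]
  refine Finset.sum_congr rfl fun σ _ => ?_
  rw [← Finset.sum_sub_distrib]
  refine Finset.sum_congr rfl fun s _ => ?_
  by_cases hs : evenS s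
  · rw [if_pos hs, if_pos hs, if_pos hs, mul_sub]
  · rw [if_neg hs, if_neg hs, if_neg hs, sub_zero]

theorem altWD_sum {ι : Type} (Y : Finset ι) (F : ι → (Fin n → ℤ) → ℤ) (x : Fin n → ℤ) :
    altWD (fun y => ∑ ν ∈ Y, F ν y) x = ∑ ν ∈ Y, altWD (F ν) x := by
  simp only [altWD_def']
  symm
  rw [Finset.sum_comm]
  refine Finset.sum_congr rfl fun σ _ => ?_
  rw [Finset.sum_comm]
  refine Finset.sum_congr rfl fun s _ => ?_
  by_cases hs : evenS s
  · simp only [if_pos hs, Finset.mul_sum]
  · simp only [if_neg hs, Finset.sum_const_zero]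

theorem altWD_mul_left (c : ℤ) (F : (Fin n → ℤ) → ℤ) (x : Fin n → ℤ) :
    altWD (fun y => c * F y) x = c * altWD F x := by
  simp only [altWD_def', Finset.mul_sum]
  refine Finset.sum_congr rfl fun σ _ => Finset.sum_congr rfl fun s _ => ?_
  by_cases hs : evenS s
  · simp only [if_pos hs]
    ring
  · simp only [if_neg hs, mul_zero]

/-- Fubini for two alternating sums -/
theorem altWD_swap (G : (Fin n → ℤ) → (Fin n → ℤ) → ℤ) (a b : Fin n → ℤ) :
    altWD (fun y => altWD (fun z => G y z) b) a = altWD (fun z => altWD (fun y => G y z) a) b := by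
  have e0 : (fun y => altWD (fun z => G y z) b) = fun y => ∑ τ : Equiv.Perm (Fin n),
      ∑ t : Fin n → Bool, if evenS t then ((Equiv.Perm.sign τ : ℤˣ) : ℤ) * G y (signedPermAct τ t b) else 0 := rfl
  rw [e0, altWD_sum, altWD_def' (fun z => altWD (fun y => G y z) a) b]
  refine Finset.sum_congr rfl fun τ _ => ?_
  rw [altWD_sum]
  refine Finset.sum_congr rfl fun t _ => ?_
  by_cases ht : evenS t
  · simp only [if_pos ht]
    rw [altWD_mul_left]
  · simp only [if_neg ht]
    have := altWD_mul_left 0 (fun _ => 0) a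
    simpa using this

/-- only the identity contributes -/
theorem altWD_eq_single (F : (Fin n → ℤ) → ℤ) (x : Fin n → ℤ)
    (h : ∀ σ s, evenS s → ¬ (σ = 1 ∧ s = fun _ => false) → F (signedPermAct σ s x) = 0) :
    altWD F x = F x := by
  rw [altWD_def', Finset.sum_eq_single 1, Finset.sum_eq_single (fun _ => false)]
  · rw [if_pos evenS_false, spa_one]
    simp
  · intro s _ hs
    by_cases hse : evenS s
    · rw [if_pos hse, h 1 s hse (fun h' => hs h'.2), mul_zero]
    · rw [if_neg hse]
  · intro h'
    exact absurd (Finset.mem_univ _) h'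
  · intro σ _ hσ
    refine Finset.sum_eq_zero fun s _ => ?_
    by_cases hse : evenS s
    · rw [if_pos hse, h σ s hse (fun h' => hσ h'.1), mul_zero]
    · rw [if_neg hse]
  · intro h'
    exact absurd (Finset.mem_univ _) h'

/-- expansion in delta functions -/
theorem altWD_expand (F : (Fin n → ℤ) → ℤ) (x : Fin n → ℤ) (Y : Finset (Fin n → ℤ))
    (hY : ∀ σ s, evenS s → signedPermAct σ s x ∈ Y) :
    altWD F x = ∑ ν ∈ Y, F ν * altWD (fun y => if ν = y then 1 else 0) x := by
  simp only [← altWD_mul_left]
  rw [← altWD_sum]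
  refine altWD_congr x fun σ s hs => ?_
  rw [Finset.sum_eq_single (signedPermAct σ s x)]
  · simp
  · intro ν _ hν
    rw [if_neg hν, mul_zero]
  · intro h'
    exact absurd (hY σ s hs) h'

end Claimed.Agent.R282
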